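import Vale.Agent.P179W.FinalA
import Vale.Agent.P179W.SetupF
import Vale.Agent.P179W.RetE
import Vale.Agent.P179W.RetU
import Vale.Agent.P179W.RetCount
import Vale.Agent.P179W.Wild
import Vale.Agent.P179W.BetaF
import Vale.Agent.P179W.AmbVal2
import Vale.Agent.P179R.Ana
import Vale.Agent.P179S50.Sane
import Vale.Agent.P179M21.Sys

/-!
# The blockwise Alperin weight conjecture over a splitting modular system

Ordinary characters are taken over the field `K` of a splitting `p`-modular system `(K, O, k)`,
and their blocks are given by the idempotents of `Z(OH)` lifting the blocks of `kH`.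
-/

open P179H524 P179B P179W P179S

universe u

theorem Vale.Agent.Results.P179.AAModularSystem.result (p : ℕ) [Fact p.Prime]
    (k : Type u) [Field k] [IsAlgClosed k] [CharP k p] (G : Type*) [Group G] [Finite G] :
    (∃ (O K : Type u) (_ : CommRing O) (_ : IsDomain O) (_ : Field K) (_ : Algebra O K)
      (π : O →+* k), IsSystem π K G) ∧
    ∀ (O K : Type*) [CommRing O] [IsDomain O] [Field K] [Algebra O K] (π : O →+* k),
      IsSystem π K G →
      (∀ (H : Subgroup G) (b : MonoidAlgebra k H), IsBlock b →
        (∃! c : MonoidAlgebra O H, IsLift π c b) ∧ (∃ a : IrrRep k H, InBlock a b) ∧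
          ∀ z ∈ Subalgebra.center k (MonoidAlgebra k H), HasScalarOn b z (centralChar b z)) ∧
      (∀ (H : Subgroup G) (χ : H → K), IsIrrCh χ →
        ∃! b : MonoidAlgebra k H, IsBlock b ∧ CharIn π χ b) ∧
      ∀ B : MonoidAlgebra k G, IsBlock B →
        numSimpleIn B = numW π p K B ∧ 0 < numSimpleIn B := by
  refine ⟨Vale.Agent.P179M21.exists_isSystem p k G, fun O K _ _ _ _ π S =>
    ⟨fun H b hb => ⟨S.lift hb, block_scalar hb⟩, fun H χ hχ => S.block H hχ, fun B hB => ?_⟩⟩
  obtain ⟨red, hred⟩ := S.numW_eq p
  rw [hred]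
  exact (awc_of' setup_holds
    (retE_of (retU_of Vale.Agent.P179R.ret valExt_holds tame_holds arch_holds trans_holds)
      count_holds)
    (wild_of (horiz_of dw_holds)) beta_holds p k).2 red G B hB
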